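import Vale.Agent.P181.PL.Basic

set_option autoImplicit false

/-!
# P181, MD: [FIN], the numbers
-/

namespace Vale.Agent.P181.MD.H809

open Vale.Agent.P181.T4 (ex)
open Vale.Agent.P181.PL (dn)

lemma exists_N {b : ℕ} (hb : 2 ≤ b) : ∃ N : ℕ, b ^ 8 ≤ N ^ 5 ∧ N ^ 5 ≤ 32 * b ^ 8 := by
  have hex : ∃ N : ℕ, b ^ 8 ≤ N ^ 5 := ⟨b ^ 8, Nat.le_self_pow (by norm_num) _⟩
  obtain ⟨N, hN⟩ : ∃ N, N = Nat.find hex := ⟨_, rfl⟩
  have h1 : b ^ 8 ≤ N ^ 5 := hN ▸ Nat.find_spec hex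
  have h2 : ∀ M, M < N → M ^ 5 < b ^ 8 := fun M hM => by
    have := Nat.find_min hex (hN ▸ hM)
    omega
  have h3 : 2 ≤ N := by
    by_contra h
    have h4 : N ^ 5 ≤ 1 := by
      have : N ≤ 1 := by omega
      calc N ^ 5 ≤ 1 ^ 5 := Nat.pow_le_pow_left this 5
        _ = 1 := by norm_num
    have h5 : 2 ^ 8 ≤ b ^ 8 := Nat.pow_le_pow_left hb 8
    omega
  refine ⟨N, h1, ?_⟩
  obtain ⟨M, rfl⟩ : ∃ M, N = M + 1 := ⟨N - 1, by omega⟩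
  have h4 := h2 M (by omega)
  calc (M + 1) ^ 5 ≤ (2 * M) ^ 5 := Nat.pow_le_pow_left (by omega) 5
    _ = 32 * M ^ 5 := by ring
    _ ≤ 32 * b ^ 8 := by omega

lemma tele (x : ℕ → ℕ) (g X : ℕ) (h : ∀ m, 2 ≤ m → m < X + 2 → x m ≤ x (m + 1) + g) :
    x 2 ≤ x (X + 2) + g * X := by
  induction X with
  | zero => simp
  | succ X ih =>
    have h1 := ih fun m hm hm' => h m hm (by omega)
    have h2 := h (X + 2) (by omega) (by omega)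
    have h3 : g * (X + 1) = g * X + g := by ring
    have h4 : X + 1 + 2 = X + 2 + 1 := by omega
    rw [h4]
    omega

lemma num_N {a b X N : ℕ} (hX : 2 ≤ X) (hXa : X ^ 200 ≤ a) (hab : a ≤ b) (hN : b ^ 8 ≤ N ^ 5) :
    X * a ≤ N := by
  have h1 : X ^ 5 ≤ a ^ 3 := by
    have e1 : X ^ 5 ≤ X ^ 200 := Nat.pow_le_pow_right (by omega) (by norm_num)
    have e2 : a ≤ a ^ 3 := Nat.le_self_pow (by norm_num) _
    omega
  have h2 : (X * a) ^ 5 ≤ N ^ 5 := by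
    calc (X * a) ^ 5 = X ^ 5 * a ^ 5 := by ring
      _ ≤ a ^ 3 * a ^ 5 := Nat.mul_le_mul_right _ h1
      _ = a ^ 8 := by ring
      _ ≤ b ^ 8 := Nat.pow_le_pow_left hab 8
      _ ≤ N ^ 5 := hN
  exact (Nat.pow_le_pow_iff_left (by norm_num)).1 h2

lemma num_gap {a b X N x : ℕ} (hX : 2 ≤ X) (hXa : X ^ 200 ≤ a) (hb : b ≤ X * a)
    (hN : N ^ 5 ≤ 32 * b ^ 8) (hx : a ^ 5 ≤ x ^ 3) : 3 * (N * X) < x := by
  by_contra hcon
  push Not at hcon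
  have h1 : a ^ 25 ≤ x ^ 15 := by
    calc a ^ 25 = (a ^ 5) ^ 5 := by ring
      _ ≤ (x ^ 3) ^ 5 := Nat.pow_le_pow_left hx 5
      _ = x ^ 15 := by ring
  have h2 : x ^ 15 ≤ 3 ^ 15 * X ^ 15 * (N ^ 5) ^ 3 := by
    calc x ^ 15 ≤ (3 * (N * X)) ^ 15 := Nat.pow_le_pow_left hcon 15
      _ = 3 ^ 15 * X ^ 15 * (N ^ 5) ^ 3 := by ring
  have h3 : (N ^ 5) ^ 3 ≤ (32 * (X * a) ^ 8) ^ 3 :=
    Nat.pow_le_pow_left (hN.trans (Nat.mul_le_mul_left _ (Nat.pow_le_pow_left hb 8))) 3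
  have h4 : a ^ 25 ≤ 6 ^ 15 * X ^ 39 * a ^ 24 := by
    calc a ^ 25 ≤ 3 ^ 15 * X ^ 15 * (N ^ 5) ^ 3 := h1.trans h2
      _ ≤ 3 ^ 15 * X ^ 15 * (32 * (X * a) ^ 8) ^ 3 := Nat.mul_le_mul_left _ h3
      _ = 6 ^ 15 * X ^ 39 * a ^ 24 := by ring
  have h5 : 6 ^ 15 ≤ X ^ 39 := by
    calc 6 ^ 15 ≤ 2 ^ 39 := by norm_num
      _ ≤ X ^ 39 := Nat.pow_le_pow_left hX 39
  have h6 : X ^ 78 < a := by
    calc X ^ 78 < X ^ 200 := Nat.pow_lt_pow_right (by omega) (by norm_num)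
      _ ≤ a := hXa
  have h7 : 0 < a ^ 24 := pow_pos (by omega) _
  have h8 : a ^ 25 < a ^ 25 := by
    calc a ^ 25 ≤ 6 ^ 15 * X ^ 39 * a ^ 24 := h4
      _ ≤ X ^ 39 * X ^ 39 * a ^ 24 :=
          Nat.mul_le_mul_right _ (Nat.mul_le_mul_right _ h5)
      _ = X ^ 78 * a ^ 24 := by ring
      _ < a * a ^ 24 := Nat.mul_lt_mul_of_pos_right h6 h7
      _ = a ^ 25 := by ring
  exact lt_irrefl _ h8

lemma num_b {a b X : ℕ} (hX : 2 ≤ X) (hXa : X ^ 200 ≤ a) (hb : b ≤ X * a) :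
    b ^ 50 ≤ a ^ 51 := by
  have h1 : X ^ 50 ≤ a :=
    (Nat.pow_le_pow_right (by omega) (by norm_num)).trans hXa
  calc b ^ 50 ≤ (X * a) ^ 50 := Nat.pow_le_pow_left hb 50
    _ = X ^ 50 * a ^ 50 := by ring
    _ ≤ a * a ^ 50 := Nat.mul_le_mul_right _ h1
    _ = a ^ 51 := by ring

lemma num_m {a b X m : ℕ} (hX : 2 ≤ X) (hXa : X ^ 200 ≤ a) (hab : a ≤ b) (hm : m ≤ X + 2) :
    m ^ 20 ≤ b := by
  have h1 : m ≤ X ^ 2 := by nlinarith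
  calc m ^ 20 ≤ (X ^ 2) ^ 20 := Nat.pow_le_pow_left h1 20
    _ = X ^ 40 := by ring
    _ ≤ X ^ 200 := Nat.pow_le_pow_right (by omega) (by norm_num)
    _ ≤ b := hXa.trans hab

lemma num_x {a X x w d : ℕ} (hX : 2 ≤ X) (hXa : X ^ 200 ≤ a) (hw : a ^ 2 ≤ X * w)
    (hwx : w ≤ X * x + d) (hd : d ≤ X ^ 2 * a) : a ^ 99 ≤ x ^ 50 := by
  have ha : 0 < a := lt_of_lt_of_le (pow_pos (by omega) _) hXa
  have h1 : a ^ 2 ≤ X ^ 2 * x + X ^ 3 * a := by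
    calc a ^ 2 ≤ X * w := hw
      _ ≤ X * (X * x + X ^ 2 * a) := Nat.mul_le_mul_left _ (by omega)
      _ = X ^ 2 * x + X ^ 3 * a := by ring
  have h2 : 2 * (X ^ 3 * a) ≤ a ^ 2 := by
    have e1 : 2 * X ^ 3 ≤ a := by
      calc 2 * X ^ 3 ≤ X * X ^ 3 := Nat.mul_le_mul_right _ hX
        _ = X ^ 4 := by ring
        _ ≤ X ^ 200 := Nat.pow_le_pow_right (by omega) (by norm_num)
        _ ≤ a := hXa
    calc 2 * (X ^ 3 * a) = (2 * X ^ 3) * a := by ring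
      _ ≤ a * a := Nat.mul_le_mul_right _ e1
      _ = a ^ 2 := by ring
  have h3 : a ^ 2 ≤ X ^ 3 * x := by
    calc a ^ 2 ≤ 2 * (X ^ 2 * x) := by omega
      _ ≤ X * (X ^ 2 * x) := Nat.mul_le_mul_right _ hX
      _ = X ^ 3 * x := by ring
  have h4 : X ^ 150 ≤ a :=
    (Nat.pow_le_pow_right (by omega) (by norm_num)).trans hXa
  have h5 : a * a ^ 99 ≤ a * x ^ 50 := by
    calc a * a ^ 99 = (a ^ 2) ^ 50 := by ring
      _ ≤ (X ^ 3 * x) ^ 50 := Nat.pow_le_pow_left h3 50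
      _ = X ^ 150 * x ^ 50 := by ring
      _ ≤ a * x ^ 50 := Nat.mul_le_mul_right _ h4
  exact Nat.le_of_mul_le_mul_left h5 ha

/-- The gap. -/
lemma exists_gap {a b n X N : ℕ} {lam : Fin n → ℕ} (hX : 2 ≤ X)
    (hXa : X ^ 200 ≤ a) (hab : a ≤ b) (hb : b ≤ X * a) (hN1 : b ^ 8 ≤ N ^ 5)
    (hN : N ^ 5 ≤ 32 * b ^ 8) (hd : dn lam X ≤ b * X) (hx : a ^ 5 ≤ ex lam 2 ^ 3) :
    ∃ m, 3 ≤ m ∧ m ≤ X + 2 ∧ ex lam m + 2 * N < ex lam (m - 1) := by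
  by_contra hcon
  push Not at hcon
  have h1 := tele (fun i => ex lam i) (2 * N) X (fun m hm hm' => by
    have := hcon (m + 1) (by omega) (by omega)
    simpa using this)
  have h2 : ex lam (X + 2) ≤ N * X := by
    calc ex lam (X + 2) ≤ dn lam (X + 2) := PL.ex_le_dn lam _
      _ ≤ dn lam X := PL.dn_anti lam (by omega)
      _ ≤ b * X := hd
      _ ≤ (X * a) * X := Nat.mul_le_mul_right _ hb
      _ ≤ N * X := Nat.mul_le_mul_right _ (num_N hX hXa hab hN1)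
  have h3 := num_gap hX hXa hb hN hx
  have h4 : 2 * N * X = 2 * (N * X) := by ring
  omega

end Vale.Agent.P181.MD.H809
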