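import Vale.Agent.P181.MD.Spec
import Vale.Agent.P181.MD.H809.Num
import Vale.Agent.P181.T7.Cells
import Vale.Agent.P181.H530.Zero
import Vale.Agent.P181.H530.Pad
import Vale.Agent.P181.H539.UpStmt
import Vale.Agent.P181.H583.Upper
import Vale.Agent.P181.H467.NT.Defs
import Vale.Agent.P181.BL.DefsJ

set_option autoImplicit false

/-!
# P181, MD: [FIN], a long third row: the theorem from the lower bound
-/

namespace Vale.Agent.P181.MD.H809

open Vale.Agent.P181
open Vale.Agent.P181.T4 (ex)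
open Vale.Agent.P181.H280 (plethMult)
open Vale.Agent.P181.H463 (gt)
open Vale.Agent.P181.PL (dn exlt exge exfin exanti dn_succ)

/-- It is enough to treat partitions with positive rows, at most `a` of them. -/
theorem trim {a b N : ℕ} (lam : Fin N → ℕ)
    (h : ∀ (k : ℕ) (mu : Fin k → ℕ), Antitone mu → ∑ i, mu i = a * b → (∀ i, 0 < mu i) → k ≤ a →
      (∀ j, dn mu j = dn lam j) → plethMult a b k mu ≤ plethMult b a k mu) :
    plethMult a b N lam ≤ plethMult b a N lam := by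
  by_cases hz : plethMult a b N lam = 0
  · rw [hz]
    exact Nat.zero_le _
  obtain ⟨hanti, hsum, hza⟩ := H530.zero_stmt a b N lam hz
  have hex' : ∃ k, k = N ∨ ex lam k = 0 := ⟨N, Or.inl rfl⟩
  obtain ⟨k, hk⟩ : ∃ k, k = Nat.find hex' := ⟨_, rfl⟩
  have hkN : k ≤ N := by
    rw [hk]
    exact Nat.find_min' hex' (Or.inl rfl)
  have hpos : ∀ i, i < k → 0 < ex lam i := by
    intro i hi
    rw [hk] at hi
    have h1 := Nat.find_min hex' hi
    push Not at h1
    exact Nat.pos_of_ne_zero h1.2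
  have hzero : ∀ i : Fin N, k ≤ (i : ℕ) → lam i = 0 := by
    intro i hi
    have h0 : k = N ∨ ex lam k = 0 := by
      rw [hk]
      exact Nat.find_spec hex'
    rcases h0 with h1 | h1
    · exact absurd i.2 (by omega)
    · have h2 := exanti hanti hi
      rw [h1, exfin] at h2
      exact Nat.le_zero.1 h2
  have hka : k ≤ a := by
    by_contra hc
    have h1 := hpos a (by omega)
    rw [exlt lam (by omega : a < N), hza ⟨a, by omega⟩ le_rfl] at h1
    exact lt_irrefl _ h1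
  clear hk
  obtain ⟨l, rfl⟩ := Nat.exists_eq_add_of_le hkN
  obtain ⟨mu, hmu⟩ : ∃ mu : Fin k → ℕ, mu = fun j => lam (Fin.castAdd l j) := ⟨_, rfl⟩
  have hlam' : lam = fun i : Fin (k + l) => if h : (i : ℕ) < k then mu ⟨i, h⟩ else 0 := by
    funext i
    by_cases hi : (i : ℕ) < k
    · rw [dif_pos hi, hmu]
      rfl
    · rw [dif_neg hi]
      exact hzero i (by omega)
  have hmu1 : Antitone mu := by
    intro i j hij
    have hij' : (i : ℕ) ≤ j := hij
    rw [hmu]
    exact hanti (show Fin.castAdd l i ≤ Fin.castAdd l j from hij')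
  have hmu2 : ∑ i, mu i = a * b := by
    rw [← hsum, Fin.sum_univ_add, hmu]
    have h2 : ∑ i : Fin l, lam (Fin.natAdd k i) = 0 := by
      apply Finset.sum_eq_zero
      intro i _
      exact hzero _ (by simp)
    rw [h2, add_zero]
  have hmu3 : ∀ i, 0 < mu i := by
    intro i
    have h1 := hpos i i.2
    rw [exlt lam (show (i : ℕ) < k + l by omega)] at h1
    rw [hmu]
    exact h1
  have hdn : ∀ j, dn mu j = dn lam j := by
    intro j
    have h1 := T7.cells_pad (k := l) j mu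
    rw [← hlam'] at h1
    exact h1.symm
  have h1 := h k mu hmu1 hmu2 hmu3 hka hdn
  rw [← H530.pad_stmt a b k l mu, ← H530.pad_stmt b a k l mu, ← hlam'] at h1
  exact h1

/-- Powers of the logarithm are smaller than `a`. -/
lemma ev (K : ℝ) (hK : 0 < K) (m p : ℕ) :
    ∃ A0 : ℕ, ∀ a : ℕ, A0 ≤ a → (K * (1 + Real.log a) ^ m) ^ p ≤ (a : ℝ) := by
  have h1 : (fun x : ℝ => Real.log x ^ (m * p)) =o[Filter.atTop] id :=
    Real.isLittleO_pow_log_id_atTop
  have h2 := h1.bound (show 0 < (K ^ p * 2 ^ (m * p))⁻¹ by positivity)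
  have h3 := tendsto_natCast_atTop_atTop (R := ℝ) |>.eventually h2
  obtain ⟨A0, hA0⟩ := Filter.eventually_atTop.1 (h3.and (Filter.eventually_ge_atTop 3))
  refine ⟨A0, fun a ha => ?_⟩
  obtain ⟨h4, h5⟩ := hA0 a ha
  have ha3 : (3 : ℝ) ≤ a := by exact_mod_cast h5
  have hlog : 1 ≤ Real.log a := by
    rw [Real.le_log_iff_exp_le (by linarith)]
    have := Real.exp_one_lt_d9
    linarith
  rw [Real.norm_of_nonneg (by positivity), id, Real.norm_of_nonneg (by positivity)] at h4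
  calc (K * (1 + Real.log a) ^ m) ^ p = K ^ p * (1 + Real.log a) ^ (m * p) := by
        rw [mul_pow, ← pow_mul]
    _ ≤ K ^ p * (2 * Real.log a) ^ (m * p) := by
        apply mul_le_mul_of_nonneg_left _ (by positivity)
        exact pow_le_pow_left₀ (by linarith) (by linarith) _
    _ = (K ^ p * 2 ^ (m * p)) * Real.log a ^ (m * p) := by rw [mul_pow, mul_assoc]
    _ ≤ (K ^ p * 2 ^ (m * p)) * ((K ^ p * 2 ^ (m * p))⁻¹ * a) :=
        mul_le_mul_of_nonneg_left h4 (by positivity)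
    _ = a := by rw [← mul_assoc, mul_inv_cancel₀ (by positivity), one_mul]


/-- the trivial upper bound -/
theorem le_gt {a b n : ℕ} {lam : Fin n → ℕ} (hlam : Antitone lam) :
    plethMult a b n lam ≤ gt n a lam := by
  have h1 := T4.plethMult_le_pow (a := a) (b := b) (c := n) (R := 0) (m := n) (Nat.zero_add n) lam
    (∑ i, lam i) (fun i hi => absurd hi (Nat.not_lt_zero _))
  have h2 : (fun i : Fin n => lam ⟨0 + i, by have := i.isLt; omega⟩) = lam := by
    funext i
    exact congrArg lam (Fin.ext (Nat.zero_add _))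
  rw [h2, Nat.zero_mul, pow_zero, one_mul] at h1
  exact h1.trans (H539.finrank_HW_le_gt n a hlam)

/-- The theorem with an explicit polylogarithmic `X`. -/
theorem core (hB : LBM) : ∃ a0 : ℕ, ∀ (a b n X : ℕ) (lam : Fin n → ℕ), a0 ≤ a → 6 * a ≤ b →
    2 ≤ X → X ^ 200 ≤ a → b ≤ X * a → n ≤ a → Antitone lam → ∑ i, lam i = a * b →
    dn lam X ≤ b * X → a ^ 2 ≤ X * dn lam 1 → a ^ 5 ≤ ex lam 2 ^ 3 →
    plethMult a b n lam ≤ plethMult b a n lam := by
  obtain ⟨a0, hB⟩ := hB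
  refine ⟨a0, ?_⟩
  intro a b n X lam ha hab hX hXa hb hn hanti hsum hd hw hx
  have hX1 : X ≤ a := (Nat.le_self_pow (by norm_num) _).trans hXa
  obtain ⟨N, hN1, hN2⟩ := exists_N (show 2 ≤ b by omega)
  obtain ⟨m, hm1, hm2, hm3⟩ := exists_gap hX hXa (by omega) hb hN1 hN2 hd hx
  have hmn : m ≤ n := by
    by_contra hcon
    have := exge lam (show n ≤ m - 1 by omega)
    omega
  have hw1 : dn lam 1 ≤ X * ex lam 1 + dn lam (1 + X) := by
    have := PL.dn_le hanti 1 X
    omega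
  have hd' : dn lam (1 + X) ≤ X ^ 2 * a := by
    calc dn lam (1 + X) ≤ dn lam X := PL.dn_anti lam (by omega)
      _ ≤ b * X := hd
      _ ≤ (X * a) * X := Nat.mul_le_mul_right _ hb
      _ = X ^ 2 * a := by ring
  refine (le_gt hanti).trans (hB a b n m N lam ha hab (num_b hX hXa hb) hn hanti hsum hm1 hmn
    (num_m hX hXa (by omega) hm2) hN1 hN2 ?_ (num_x hX hXa hw hw1 hd'))
  intro i hi
  have h1 : ex lam (m - 1) ≤ ex lam i := exanti hanti (by omega)
  rw [exfin] at h1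
  omega

/-- **[FIN]** -/
theorem fin (hB : LBM) (hS : BL.TailS) (hL : H467.NT.LinS) (hP : PL.PolyS) : ThirdLong := by
  obtain ⟨a0, hC⟩ := core hB
  obtain ⟨CP, cP, hCP, hP⟩ := hP
  obtain ⟨CL, cL, hCL, hL⟩ := hL
  obtain ⟨cT, hS⟩ := hS
  obtain ⟨e, he⟩ : ∃ e, e = cP + cL + cT := ⟨_, rfl⟩
  obtain ⟨K, hK⟩ : ∃ K, K = CP + CL + 2 := ⟨_, rfl⟩
  have hK2 : 2 ≤ K := by
    rw [hK]
    linarith
  obtain ⟨A0, hA0⟩ := ev (2 * K) (by linarith) e 200
  refine ⟨max a0 A0, ?_⟩
  intro a b n lam ha hab hx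
  have haa0 : a0 ≤ a := (le_max_left _ _).trans ha
  have hev := hA0 a ((le_max_right _ _).trans ha)
  have hPab := hP a b
  have hLab := hL a b (by omega)
  have hSab := hS a b
  have hlog : 0 ≤ Real.log a := Real.log_natCast_nonneg a
  obtain ⟨L, hLd⟩ : ∃ L : ℝ, L = 1 + Real.log a := ⟨_, rfl⟩
  rw [← hLd] at hev hPab hLab hSab
  have hL1 : 1 ≤ L := by
    rw [hLd]
    linarith
  have hLe : 1 ≤ L ^ e := one_le_pow₀ hL1
  have hle : ∀ {c : ℕ} {C : ℝ}, 0 < C → C ≤ K → c ≤ e → C * L ^ c ≤ K * L ^ e := by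
    intro c C hC hCK hce
    have h2 : L ^ c ≤ L ^ e := pow_le_pow_right₀ hL1 hce
    have h4 : 0 ≤ L ^ c := by positivity
    exact mul_le_mul hCK h2 h4 (by linarith)
  obtain ⟨X, hX⟩ : ∃ X : ℕ, X = ⌈K * L ^ e⌉₊ := ⟨_, rfl⟩
  have hX1 : K * L ^ e ≤ X := by
    rw [hX]
    exact Nat.le_ceil _
  have hKL : 2 ≤ K * L ^ e := by nlinarith
  have hX2 : (X : ℝ) ≤ 2 * K * L ^ e := by
    have h1 := Nat.ceil_lt_add_one (show 0 ≤ K * L ^ e by linarith)
    rw [← hX] at h1
    linarith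
  have h2X : 2 ≤ X := by
    have : (2 : ℝ) ≤ X := hKL.trans hX1
    exact_mod_cast this
  have hXa : X ^ 200 ≤ a := by
    have h1 : (X : ℝ) ^ 200 ≤ a :=
      (pow_le_pow_left₀ (Nat.cast_nonneg _) hX2 200).trans hev
    exact_mod_cast h1
  -- the polylogarithmic theorem
  by_cases hbX : X * a < b
  · refine hPab ?_ _ _
    have h1 : CP * L ^ cP ≤ K * L ^ e := hle hCP (by rw [hK]; linarith) (by omega)
    have h2 : ((X * a : ℕ) : ℝ) ≤ b := by exact_mod_cast hbX.le
    rw [Nat.cast_mul] at h2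
    calc CP * a * L ^ cP = CP * L ^ cP * a := by ring
      _ ≤ X * a := mul_le_mul_of_nonneg_right (h1.trans hX1) (Nat.cast_nonneg _)
      _ ≤ b := h2
  push Not at hbX
  -- few boxes below row one
  by_cases hw : X * dn lam 1 < a ^ 2
  · refine hLab _ _ ?_
    have h1 : CL * L ^ cL ≤ K * L ^ e := hle hCL (by rw [hK]; linarith) (by omega)
    have h2 : ((X * dn lam 1 : ℕ) : ℝ) ≤ ((a ^ 2 : ℕ) : ℝ) := by exact_mod_cast hw.le
    push_cast at h2
    exact (mul_le_mul_of_nonneg_right (h1.trans hX1) (Nat.cast_nonneg _)).trans h2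
  push Not at hw
  -- a heavy tail
  by_cases hd : b * X < dn lam X
  · refine hSab _ _ (by omega) ?_
    have h1 : 1 * L ^ cT ≤ K * L ^ e := hle one_pos (by linarith) (by omega)
    rw [one_mul] at h1
    have h2 : ((b * X : ℕ) : ℝ) ≤ (dn lam X : ℝ) := by exact_mod_cast hd.le
    push_cast at h2
    have h3 : (dn lam X : ℝ) ≤
        ∑ i ∈ Finset.univ.filter (fun i : Fin n => L ^ cT ≤ ((i : ℕ) : ℝ)), (lam i : ℝ) := by
      unfold dn
      rw [Finset.sum_filter]
      push_cast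
      refine Finset.sum_le_sum fun i _ => ?_
      by_cases h4 : X ≤ (i : ℕ)
      · have h5 : L ^ cT ≤ ((i : ℕ) : ℝ) :=
          (h1.trans hX1).trans (by exact_mod_cast h4)
        rw [if_pos h4, if_pos h5]
      · rw [if_neg h4]
        split_ifs <;> simp
    refine le_trans ?_ (h2.trans h3)
    exact mul_le_mul_of_nonneg_left (h1.trans hX1) (Nat.cast_nonneg _)
  push Not at hd
  refine trim lam fun k mu hmu1 hmu2 _ hka hdn => ?_
  have hex : ∀ i, ex mu i = ex lam i := by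
    intro i
    have h1 := dn_succ mu i
    have h2 := dn_succ lam i
    rw [hdn, hdn] at h1
    omega
  refine hC a b k X mu haa0 hab h2X hXa hbX hka hmu1 hmu2 (by rw [hdn]; exact hd)
    (by rw [hdn]; exact hw) ?_
  rw [hex]
  have h1 : ((a : ℝ) ^ (5 / 3 : ℝ)) ^ 3 ≤ (ex lam 2 : ℝ) ^ 3 :=
    pow_le_pow_left₀ (Real.rpow_nonneg (Nat.cast_nonneg _) _) hx 3
  have h2 : ((a : ℝ) ^ (5 / 3 : ℝ)) ^ 3 = (a : ℝ) ^ 5 := by
    rw [← Real.rpow_natCast, ← Real.rpow_mul (Nat.cast_nonneg _), ← Real.rpow_natCast]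
    norm_num
  rw [h2] at h1
  exact_mod_cast h1

end Vale.Agent.P181.MD.H809
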