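import Vale.Agent.P181.MD.H798.Des
import Vale.Agent.P181.MD.H91.Sys
import Vale.Agent.P181.MD.H91.Comp
import Vale.Agent.P181.MD.H91.MatM
import Vale.Agent.P181.MD.H124.D
import Vale.Agent.P181.MD.H761.U
import Vale.Agent.P181.MD.H187.Ord
import Vale.Agent.P181.MD.H187.Rem
import Vale.Agent.P181.MD.H481.LB
import Vale.Agent.P181.MD.H809.Fin
import Vale.Agent.P181.TS.H798.Fin
import Vale.Agent.P181.H467.NT.All
import Vale.Agent.P181.PLX.Main

set_option autoImplicit false

/-!
# P181, MD: a long third row, no hypothesis left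
-/

namespace Vale.Agent.P181.MD.H809

open Vale.Agent.P181

/-- the design -/
theorem desM : DesM :=
  H798.desMStep TS.H694.sz H91.sysStmt H124.dStmt H761.uStmt H91.compStmt TS.H923.accStmt

/-- the orbit inequality -/
theorem matM : MatM := H91.matMStep H187.ord1 H187.ord2 H187.ord3

/-- the lower bound -/
theorem lbm : LBM := H481.lbmStep H187.rem matM desM

/-- heavy tails, `b ≥ 2 a` -/
theorem tailS : BL.TailS := by
  obtain ⟨c, h⟩ := TS.tailF 1 one_pos
  refine ⟨c, fun a b n lam hab hsum => h a b n lam ?_ hsum⟩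
  have h1 : ((2 * a : ℕ) : ℝ) ≤ b := by exact_mod_cast hab
  push_cast at h1
  linarith

/-- **the theorem of this line**: for `b ≥ 6 a`, `a` large, every shape whose third row is at least
`a ^ (5 / 3)`. -/
theorem thirdLong : ThirdLong := fin lbm tailS H467.NT.linS PLX.polyS

end Vale.Agent.P181.MD.H809
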